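import Vale.Agent.P283R.Cx.Gn
import Vale.Agent.P283R.Sl.Gh

/-!
# P283R, block BH: rings of sections of `k` divisors with at most `k + l` generators, scheme side
-/

namespace Vale.Agent.P283R.Bh

/-- the statement for the rows, uniform in the number of the divisors -/
def QH (b : Prop) : Prop := ∀ (l n q : ℕ) (ε : ℝ), 0 < q → 0 < ε →
  ∃ M : ℕ, 1 ≤ M ∧ ∀ k N : ℕ, N ≤ k + l → Cx.QgB b N k n q ε M

theorem QH.qgU {b : Prop} (h : QH b) (n : ℕ) : Cx.QgU b n := fun N k q ε a c =>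
  (h N n q ε a c).imp fun _ w => ⟨w.1, w.2 k N (Nat.le_add_left _ _)⟩

end Vale.Agent.P283R.Bh

namespace Vale.Agent.P283R.Sl

open Var

variable {q : ℕ}

/-- birational contractions -/
theorem on_rel (h : Bh.QH True) (hq : 1 ≤ q) (l : ℕ) :
    On fun _ _ _ f ω B z => FanoType f ω ∧ NefOver f (-logCan ω B) ∧ (∃ p, IsPull f p) ∧
      CoxRel l q f ω B z := by
  intro d hd ε hε R hR
  obtain ⟨n, rfl⟩ : ∃ n, d = n + 1 := ⟨d - 1, by omega⟩
  obtain ⟨M, M1, H⟩ := h l n q ε hq hε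
  exact ⟨M, M1, fun X Z f ω B z a b c _ s t ⟨u1, u2, u3, k, N, V, D, le, hV, zV, h1, h3⟩ =>
    (has_iff f ω B _ z).2 (Cox.schG (X := X.o) (Z := Z.o) M1 (H k N le) a b
      ((pair_iff _ _ ω B).1 c) s ((fanoType_iff f ω).1 u1) ((nefOver_iff f _).1 u2) t
      (fun _ => u3) hV zV h1 (fun x => (x trivial).elim) h3).2⟩

/-- all contractions -/
theorem on_relK (h : Bh.QH False) (hq : 1 ≤ q) (l : ℕ) :
    On fun _ _ _ f ω B z => FanoType f ω ∧ NefOver f (-logCan ω B) ∧ CoxRelK l q f ω B z := by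
  intro d hd ε hε R hR
  obtain ⟨n, rfl⟩ : ∃ n, d = n + 1 := ⟨d - 1, by omega⟩
  obtain ⟨M, M1, H⟩ := h l n q ε hq hε
  exact ⟨M, M1, fun X Z f ω B z a b c _ s t ⟨u1, u2, k, N, V, D, le, hV, zV, h1, h2, h3⟩ =>
    (has_iff f ω B _ z).2 (Cox.schG (X := X.o) (Z := Z.o) M1 (H k N le) a b
      ((pair_iff _ _ ω B).1 c) s ((fanoType_iff f ω).1 u1) ((nefOver_iff f _).1 u2) t
      False.elim hV zV h1 (fun _ => h2) (Cox.InSpan.add h2 h3 q fun E => (mul_add _ _ _).trans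
        (congrArg (fun x : ℚ => q * x + q * B.coeff E) (add_zero _).symm))).2⟩

end Vale.Agent.P283R.Sl
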