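import Vale.Agent.P283R.Bh.Bir
import Vale.Agent.P283R.Bh.Sch
import Vale.Agent.P283R.Cy.Sz
import Vale.Agent.P283R.Cg.Tpy

/-!
# P283R, block BH: contractions of any relative dimension
-/

open Set

noncomputable section

namespace Vale.Agent.P283R.Bh

open Vale.Agent.P287D Vale.Agent.P283M Vale.Agent.P283R.Cx Vale.Agent.P283R.Cy Vale.Agent.P297Z
open Vale.Agent.P283R.To (mon mon_ne)

/-- the statement at the places `Q` with `p s a Q`, for `k` divisors and `N` generators; `f` is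
any finite presentation -/
def MF (p : ∀ {K : Type} [Field K] [Algebra ℂ K] {k N : ℕ}, (Fin N → K) → (Fin N → Fin k → ℤ) →
    Pl K → Prop) (d k N q : ℕ) (ε : ℝ) (m : ℕ) : Prop :=
  ∀ (K : Type) [Field K] [Algebra ℂ K] (y : Fin d → K) (T : Set (Pl K)) (D : Pl K → Fin k → ℤ)
    (s : Fin N → K) (a : Fin N → Fin k → ℤ) (c : ℕ) (f : Fin c → MvPolynomial (Fin N) ℂ)
    (h₀ g : K) (e₀ b : Fin k → ℤ), Eqv T D (kap y) h₀ e₀ →
    Dx q ε y T D s a f (h₀ ^ q * g) g ((q : ℤ) • e₀ + b) b →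
    ∀ Q : Pl K, p s a Q → MN q m y s a (h₀ ^ q * g) ((q : ℤ) • e₀ + b) Q

/-- the place is trivial on the base -/
def Hr {K : Type} [Field K] [Algebra ℂ K] {k N : ℕ} (s : Fin N → K) (a : Fin N → Fin k → ℤ)
    (Q : Pl K) : Prop := ∀ x ∈ Sp s a 0, x ≠ 0 → Q.ord x = 0

/-- **VG**: the vertical places, `N` generators -/
def VG : Prop := ∀ (d k N q : ℕ) (ε : ℝ), 0 < q → 0 < ε → ∃ m, 1 ≤ m ∧ MF Vt d k N q ε m

/-- **HG**: the horizontal places, `N` generators -/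
def HG : Prop := ∀ (d k N q : ℕ) (ε : ℝ), 0 < q → 0 < ε → ∃ m, 1 ≤ m ∧ MF Hr d k N q ε m

/-- the property for all contractions -/
def Pf (d q : ℕ) (ε : ℝ) : Prp d := fun K _ _ k N y T D s a h δ Q =>
  (∃ (c : ℕ) (f : Fin c → MvPolynomial (Fin N) ℂ) (h₀ g : K) (e₀ b : Fin k → ℤ),
    Eqv T D (kap y) h₀ e₀ ∧ h = h₀ ^ q * g ∧ δ = (q : ℤ) • e₀ + b ∧ Dx q ε y T D s a f h g δ b) ∧
  ∀ c, dg a c = 0 → 0 ≤ Q.ord (∏ j, s j ^ c j)

open Hl in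
theorem lo_pf (d q : ℕ) (ε : ℝ) : Lo (Pf d q ε) := by
  rintro K _ _ k N y T D s a _ _ Q ⟨⟨c, f, h₀, g, e₀, b, E, rfl, rfl, X⟩, ov⟩
  have hs := X.cox.ne
  refine ⟨X.cox, X.h0, fun n S => (vth S hs ov).imp fun t ht =>
    ⟨ht.1, fun k' N' e r he H => ⟨?_, ht.2 k' N' e r H⟩⟩⟩
  obtain ⟨f', X'⟩ := dx cxj cij wtj X S he r
  refine ⟨_, f', h₀ * mon s (-S.σ e₀), _, S.σ e₀ ∘ e, _,
    ⟨mul_ne_zero E.1 (mon_ne hs _), fun P hP => ?_⟩, tw_eq hs S _ _ _ _, ?_, X'⟩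
  · rw [E.2 P hP.1, ord_tw hs P E.1, ord_TJ hs he hP, S.sec]
    push_cast
    ring
  · rw [map_add, map_smul]
    rfl

theorem gv_pf {d k N q m m' : ℕ} {ε : ℝ} (m0 : 0 < m) (m1 : 0 < m') (h : MF Vt d k N q ε m)
    (h' : MF Hr d k N q ε m') : Gv (Pf d q ε) k N q (m * m') := by
  rintro K _ _ y T D s a _ _ Q ⟨⟨c, f, h₀, g, e₀, b, E, rfl, rfl, X⟩, ov⟩
  by_cases hv : ∃ x ∈ Sp s a 0, x ≠ 0 ∧ 0 < Q.ord x
  · exact Tpy.mn_mul m1 (h K y T D s a c f h₀ g e₀ b E X Q ⟨ov, hv⟩)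
  · rw [mul_comm]
    exact Tpy.mn_mul m0 (h' K y T D s a c f h₀ g e₀ b E X Q fun x hx x0 =>
      le_antisymm (not_lt.1 fun h => hv ⟨x, hx, x0, h⟩) (Hl.ord_nn ov hx x0))

theorem tp_pf {N k n q m : ℕ} {ε : ℝ} (hq : 0 < q) (m2 : 2 ≤ m)
    (H : Gv (Pf (n + 1) q ε) k N q m) : QgB False N k n q ε (q * m) := by
  intro K _ _ u Λ Γ Γ' D s a A x _ can ⟨h, δ, e⟩ bd lc nef
  obtain ⟨h₀, e₀, e'⟩ := can id
  obtain ⟨y, E, hy, hc⟩ := Cb.exists_cn A.ff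
  obtain ⟨c, f, ci⟩ := Cg.exists_rel (s := s) (a := a)
  have p0 := pow_ne_zero q e'.1
  have e1 : h = h₀ ^ q * (h / h₀ ^ q) := (mul_div_cancel₀ h p0).symm
  have e2 : δ = (q : ℤ) • e₀ + (δ - (q : ℤ) • e₀) := (add_sub_cancel _ _).symm
  have Y : Dy n q ε u Λ Γ Γ' y D s a h₀ (h / h₀ ^ q) e₀ (δ - (q : ℤ) • e₀) :=
    ⟨A, ⟨E, hy⟩, hc, x, hc ▸ e', ⟨div_ne_zero e.1 p0, fun P hP => by
      have k1 := e.2 P hP
      have k2 := e'.2 P hP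
      rw [Pl.ord_div _ e.1 p0, Pl.ord_pow, sub_dotProduct, smul_dotProduct]
      simp only [dsc, Pi.sub_apply, Pi.smul_apply, Pi.neg_apply, smul_eq_mul] at k1 ⊢
      push_cast at k1 k2 ⊢
      rw [k2]
      linarith⟩, bd, lc, fun η η0 => Br.klr A A.dn.neg nef η0⟩
  have X := Tpy.dx hq Y ci
  rw [← e1, ← e2] at X
  exact bak n k _ q m K u Λ Γ Γ' D s a y _ _ A x ⟨E, hy⟩ hc
    (m2.trans (Nat.le_mul_of_pos_left _ hq)) e fun Q o => H K y _ D s a _ _ Q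
      ⟨⟨c, f, h₀, _, e₀, _, Y.can, e1, e2, X⟩, Tz.mon_ov A x o⟩

/-- **birational contractions** -/
theorem qhT (hA : Bx.ABE) : QH True := qh hA

/-- **all contractions** -/
theorem qhF (h : VG) (h' : HG) : QH False := fun l n q ε hq hε => by
  obtain ⟨m, m2, H⟩ := helly hq (lo_pf (n + 1) q ε) (fun k N => by
    obtain ⟨m, m1, H⟩ := h (n + 1) k N q ε hq hε
    obtain ⟨m', m1', H'⟩ := h' (n + 1) k N q ε hq hε
    refine ⟨m * m' * 2, Nat.le_mul_of_pos_left _ (Nat.mul_pos m1 m1'), ?_⟩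
    intro K _ _ y T D s a h δ Q X
    exact Tpy.mn_mul two_pos (gv_pf m1 m1' H H' K y T D s a h δ Q X)) l
  exact ⟨q * m, Nat.mul_pos hq (by omega), fun k N h => tp_pf hq m2 (H k N h)⟩

end Vale.Agent.P283R.Bh

namespace Vale.Agent.P283R.Sl

open Var

/-- all contractions, `k` divisors, at most `k + l` generators -/
theorem on_relF (h : Bh.VG) (h' : Bh.HG) {q : ℕ} (hq : 1 ≤ q) (l : ℕ) :
    On fun _ _ _ f ω B z => FanoType f ω ∧ NefOver f (-logCan ω B) ∧ CoxRelK l q f ω B z :=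
  on_relK (Bh.qhF h h') hq l

end Vale.Agent.P283R.Sl
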