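import Vale.Agent.P283R.Bg.Cor
import Vale.Agent.P283R.Bg.Abg
import Vale.Agent.P283R.Bh.Fib

/-!
# P283R, block BH: the places which are not trivial on the base, any number of relations
-/

open Set

noncomputable section

namespace Vale.Agent.P283R.Bh

open Vale.Agent.P287D Vale.Agent.P283M Vale.Agent.P297Z Vale.Agent.P283R.Cx Vale.Agent.P283R.Cy

/-- there is a klt boundary near `q` -/
def Klt {F : Type} [Field F] [Algebra ℂ F] {N : ℕ} (S : Subalgebra ℂ F) (q : Ideal S)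
    (y : Fin N → F) : Prop :=
  ∃ (m : ℕ) (g : F), 0 < m ∧ g ≠ 0 ∧ (∀ R, PDat S q R → ld y m g R ≤ 1) ∧
    ∀ q₀ : Ideal S, q₀ ≤ q → ∀ R, Cen S q₀ R → 0 < ld y m g R

/-- **ABP**: the precise form of `Bx.ABE`, (H) at `p` only -/
def ABP : Prop := ∀ (N E Q : ℕ) (ε : ℝ), 0 < Q → 0 < ε → ∃ J : ℕ, Unif Q fun n =>
  ∀ (F : Type) [Field F] [Algebra ℂ F] (G : Subgroup (F ≃ₐ[ℂ] F)) (S : Subalgebra ℂ F)
    (p q : Ideal S) (y : Fin N → F) (m : ℕ) (g h : F), Pr N G S y m g → p.IsPrime →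
    q.IsMaximal → p ≤ q → Bx.Emd E S q → Bx.Crt Q S q m g h →
    (∀ R, PDat S q R → ld y m g R ≤ 1) → Hyp ε G S p y m g →
    (∀ q₀ : Ideal S, q₀ ≤ q → ∀ R, Cen S q₀ R → 0 ≤ ld y m g R) → Klt S q y →
    ∃ A, Idx J G A S p ∧ Sol n A S p (PDat S p) y m g

theorem ABP.abe (h : ABP) : Bx.ABE := fun N E Q ε hQ hε => by
  obtain ⟨J, n₀, n0, H⟩ := h N E Q ε hQ hε
  refine ⟨J, n₀, n0, fun n a b c F _ _ G S p q y m g h P pp hq le em cr l hy => ?_⟩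
  have k : ∀ q₀ : Ideal S, q₀ ≤ q → ∀ R, Cen S q₀ R → 0 < ld y m g R := fun r a R c =>
    hε.trans_le (by simpa using hy r a R c 1 one_pos fun _ _ _ => by simp)
  exact H n a b c F G S p q y m g h P pp hq le em cr l (hy p le) (fun r a R c => (k r a R c).le)
    ⟨m, g, P.pos, P.ne, l, k⟩

/-- the theorem for the finite groups, precise form, `N` generators -/
def CorN (N d k q : ℕ) (ε : ℝ) (m : ℕ) : Prop :=
  ∀ (K F : Type) [Field K] [Algebra ℂ K] [Field F] [Algebra ℂ F] [Algebra K F]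
    [IsScalarTower ℂ K F] (y : Fin d → K) (t : Fin k → F) (T : Set (Pl K))
    (D : Pl K → Fin k → ℤ) (s : Fin N → K) (a : Fin N → Fin k → ℤ), Ext K d t → Frm y →
    Cox T D s a → Cg.CorAp T D s a y t q ε m

theorem corN (hA : ABP) (N d k q : ℕ) (ε : ℝ) (q0 : 0 < q) (e0 : 0 < ε) :
    ∃ m : ℕ, 2 ≤ m ∧ CorN N d k q ε m := by
  obtain ⟨J, n₀, n0, H⟩ := hA (d + k) N q ε q0 e0
  refine ⟨2 * n₀ * J.factorial, by nlinarith [Nat.mul_le_mul n0 J.factorial_pos], ?_⟩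
  intro K F _ _ _ _ _ _ y t T D s a x fy cx h g δ b r h0 g0 hg he r0 lk U hU hy
  have ht := x.ind.ne_zero
  have A := aff K F d k y t x fy _ T D s a cx
  have N := nor_of gav K F d k y t x fy _ T D s a cx
  obtain ⟨G, g0', g1, g2, g3, g4⟩ := grp K F d k y t x fy r r0
  obtain ⟨l1, l2⟩ := lar K F d k y t x fy r r0
  obtain ⟨p, hp⟩ := Tq.exists_cen hU
  have pp := P283R.Hr.cen_prime hp
  obtain ⟨M, hM, le⟩ := p.exists_le_maximal pp.ne_top
  have P := Cr.pr (δ := δ) ht h0 q0 r0 A N g1 (g2 _ s a) g3 l1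
  have q' : (0 : ℝ) < q := Nat.cast_pos.2 q0
  have r' : (0 : ℝ) < r := Nat.cast_pos.2 r0
  have z0 := mul_ne_zero h0 (inv_ne_zero g0)
  have dv : ∀ R : Pl F, ld (zt y fun i => t i ^ r) (q * r) (Cr.tw t (h * g⁻¹) (δ + -b) q r r) R =
      lt y t R - (R.ord (hm t h δ) : ℝ) / q + (R.ord (hm t g b) : ℝ) / q := fun R => by
    rw [Cr.ld_tw ht z0 q0 r0 l2, hm_mul ht, hm_inv ht, ← div_eq_mul_inv,
      Pl.ord_div _ (hm_ne ht h0 _) (hm_ne ht g0 _)]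
    push_cast
    ring
  have pd : ∀ R, PD (Rg s a t) R →
      lt y t R - (R.ord (hm t h δ) : ℝ) / q + (R.ord (hm t g b) : ℝ) / q = 1 := fun R c => by
    obtain ⟨E, hE, v⟩ | z := pdv_of grd gav K F d k y t x fy _ T D s a cx R c
    · rw [v.lt, v.ord _ _ h0, v.ord _ _ g0, he E hE]
      field_simp
      ring
    · rw [kah K F d k y t x fy _ T D s a cx R c z, z _ _ h0, z _ _ g0]
      simp
  obtain ⟨B, i, S⟩ := H (q * (2 * n₀)) (by positivity) ((dvd_mul_left _ _).mul_left _)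
    (dvd_mul_right _ _) F G _ p M _ _ _ (Cr.tw t h δ q r 1) P pp hM le
    (Bg.emd (fun j => hm t (s j) (a j)) M hM) ⟨hm_ne ht (pow_ne_zero _ h0) _, fun R _ => by
      rw [Cr.ord_tw ht h0, Cr.ord_tw ht h0]
      push_cast
      field_simp⟩
    (fun R ⟨p', _, c⟩ => by
      have : (0 : ℝ) ≤ R.ord (hm t g b) :=
        Int.cast_nonneg (Pl.ord_nonneg_of_mem _ (c.1 ⟨_, mem_Rg ht hg⟩).1)
      rw [Cr.ld_tw ht h0 q0 r0 l2]
      linarith [pd R ⟨p', c⟩, div_nonneg this q'.le])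
    (fun V c e e0 v => by
      rw [Cr.ld_tw ht h0 q0 r0 l2]
      exact hy G g0' V (fun z hz => ⟨(c ⟨z, hz⟩).1, (hp ⟨z, hz⟩).2.symm.trans (c ⟨z, hz⟩).2⟩) e e0 v)
    (fun p' _ V c => by
      rw [Cr.ld_tw ht h0 q0 r0 l2]
      exact (lk V fun z hz => (c ⟨z, hz⟩).1).1)
    ⟨q * r, _, by positivity, hm_ne ht (pow_ne_zero _ z0) _,
      fun R ⟨p', _, c⟩ => ((dv R).trans (pd R ⟨p', c⟩)).le,
      fun p' _ V c => (lk V fun z hz => (c ⟨z, hz⟩).1).2.trans_eq (dv V).symm⟩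
  have S' := nt _ J _ F G B _ p _ _ _ (by positivity) P pp i S
  rw [mul_assoc] at S'
  exact Cr.back ht cx.ne h0 q0 r0 (by positivity) A N g4 l2 hp S'

/-- **VG** -/
theorem vg_of (hA : ABP) : VG := fun d k N q ε q0 e0 =>
  (corN hA N d k q ε q0 e0).imp fun _ H => ⟨one_le_two.trans H.1,
    fun K _ _ y T D s a _ _ _ _ _ _ _ X _ vt => by
      obtain ⟨F, _, _, _, _, t, x⟩ := Cx.ext K d k X.ff
      exact Cg.mn_ver q0 e0 x (H.2 K F y t T D s a x X.fr X.cox) X vt⟩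

end Vale.Agent.P283R.Bh
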