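import Vale.Agent.P283R.Bh.Hel
import Vale.Agent.P283R.Bg.Fin
import Vale.Agent.P283R.Cy.Mdb
import Vale.Agent.P283R.Cy.Cxj
import Vale.Agent.P283R.Cy.Wtj
import Vale.Agent.P283R.Cy.Vtj
import Vale.Agent.P283R.Cy.Tpb
import Vale.Agent.P283R.Cx.Gn0

/-!
# P283R, block BH: birational contractions, the index depends only on `N - k`
-/

open Set

noncomputable section

namespace Vale.Agent.P283R.Bh

open Vale.Agent.P287D Vale.Agent.P283M Vale.Agent.P283R.Cx Vale.Agent.P283R.Cy Vale.Agent.P297Z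
open Vale.Agent.P283R.To (mon mon_ne)

/-- the data -/
structure Dg {K : Type} [Field K] [Algebra ℂ K] {d k N : ℕ} (q : ℕ) (ε : ℝ) (y : Fin d → K)
    (T : Set (Pl K)) (D : Pl K → Fin k → ℤ) (s : Fin N → K) (a : Fin N → Fin k → ℤ) (h : K)
    (δ : Fin k → ℤ) : Prop where
  ff : FF K d
  fr : Frm y
  cox : Cox T D s a
  h0 : h ≠ 0
  eff : ∀ E ∈ T, q * kap y E ≤ (E.ord h + δ ⬝ᵥ D E : ℤ)
  hw : HW q ε y s a h δ

/-- the property in the birational case -/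
def Pb (d q : ℕ) (ε : ℝ) : Prp d := fun _ _ _ _ _ y T D s a h δ Q =>
  Dg q ε y T D s a h δ ∧ (∀ e, ∃ φ ∈ Sp s a e, φ ≠ 0) ∧ Vt s a Q

section

variable {K : Type} [Field K] [Algebra ℂ K] {d k N n k' N' q : ℕ} {ε : ℝ} {y : Fin d → K}
  {T : Set (Pl K)} {D : Pl K → Fin k → ℤ} {s : Fin N → K} {a : Fin N → Fin k → ℤ} {h : K}
  {δ : Fin k → ℤ}

theorem Dg.loc (X : Dg q ε y T D s a h δ) (S : Spl a n) {e : Fin k' → Fin N}
    (he : Function.Injective e) (r : Fin N' ≃ Fin k' ⊕ Fin n ⊕ Fin n) :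
    Dg q ε y (TJ T D s a e) (DJ D s a e) (S.sj s r) (S.aj e r) (h * mon s (-S.σ δ))
      (S.σ δ ∘ e) := by
  have hs := X.cox.ne
  refine ⟨X.ff, X.fr, cxj K k N n k' N' s a S e r hs he T D X.cox,
    mul_ne_zero X.h0 (mon_ne hs _), fun E hE => ?_,
    (wtj K k N n k' N' s a S e r hs he).1 d q ε y h δ X.h0 X.hw⟩
  have := X.eff E hE.1
  rw [Hl.ord_tw hs E X.h0, ord_TJ hs he hE, S.sec]
  push_cast at this ⊢
  linarith

end

theorem lo_pb (d q : ℕ) (ε : ℝ) : Lo (Pb d q ε) := by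
  rintro K _ _ k N y T D s a h δ Q ⟨X, all, vt⟩
  have hs := X.cox.ne
  refine ⟨X.cox, X.h0, fun n S => (vtj K k N n s a S Q hs vt).imp fun t ht =>
    ⟨ht.1, fun k' N' e r he H => ⟨X.loc S he r, fun β => ?_, ht.2 k' N' e r H⟩⟩⟩
  obtain ⟨φ, φ1, φ2⟩ := all (dz a (Function.extend e β 0))
  exact ⟨_, Function.extend_comp he β 0 ▸ S.toW hs e r _ φ1, mul_ne_zero φ2 (mon_ne hs _)⟩

open Tz Md in
theorem gv_pb {N d k q m : ℕ} {ε : ℝ} (hq : 0 < q) (hε : 0 < ε) (m0 : 0 < m)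
    (cor : Bg.CorG N d k q (min ε 1) m) : Gv (Pb d q ε) k N q m := by
  rintro K _ _ y T D s a h δ Q ⟨X, all, vt⟩
  have hy := X.fr
  obtain ⟨F, _, _, _, _, t, x⟩ := Cx.ext K d k X.ff
  have t0 := x.ind.ne_zero
  have hyp : ∀ r : ℕ, 0 < r → ∀ G : Subgroup (F ≃ₐ[ℂ] F), (G : Set _) = Gr K t r → ∀ U : Pl F,
      (∀ x ∈ Rg s a t, x ∈ U.ring) → ∀ e : ℕ, 0 < e → Dv G U e →
        min ε 1 * e ≤ lt y t U - (U.ord (hm t h δ) : ℝ) / q := by
    intro r r0 G hG U hU e e0 dv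
    have e0' : (0 : ℝ) ≤ e := Nat.cast_nonneg _
    obtain ⟨tr, -⟩ | ⟨Q, l, w⟩ := dwn K F d k y t x hy U
    · have z : ∀ e : Fin k → ℤ, 0 ≤ ∑ i, e i * U.ord (t i) := fun e => by
        obtain ⟨φ, p, φ0⟩ := all e
        have := Pl.ord_nonneg_of_mem _ (hU _ (hm_mem grd x hy p))
        rwa [Tz.ord_hm t0 U φ0, Trv.ord tr, zero_add] at this
      have z0 : ∀ i, U.ord (t i) = 0 := fun i => by
        have b1 := z (Pi.single i 1)
        have b2 := z (Pi.single i (-1))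
        rw [Finset.sum_eq_single i (fun j _ c => by simp [c]) (by simp), Pi.single_eq_same] at b1 b2
        omega
      have : (e : ℝ) ≤ lt y t U := Gp.lg_tor X.ff hy.ind x.ind x.gen tr z0 r0
        fun z hz z0 => dv z z0 (fix_adj hG hz)
      rw [Tz.ord_hm t0 U X.h0, Trv.ord tr]
      simp only [z0, Int.cast_zero, Finset.sum_const_zero, mul_zero, add_zero, zero_div, sub_zero]
      nlinarith [min_le_right ε 1]
    · have b1 := hw_ver t0 X.cox.ne X.h0 X.hw l (fun j => Pl.ord_nonneg_of_mem _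
        (hU _ (Algebra.subset_adjoin ⟨j, rfl⟩))) w
      have le : (e : ℝ) ≤ U.ord (algebraMap K F Q.t) := by
        exact_mod_cast Int.le_of_dvd l.e_pos (dv _ ((map_ne_zero _).2 Q.t_ne) (fix_K hG _))
      nlinarith [min_le_left ε 1]
  obtain ⟨U, u₀, l, e, d0, w⟩ := lif K F d k y t x hy _ s a Q X.cox.ne vt.1
  obtain ⟨c', c1, c2⟩ := Cx.fin _ k a _ u₀ (-((m : ℤ) • δ)) _ d0 w fun r r0 =>
    (cor K F y t _ D s a h δ r x hy X.cox X.h0 X.eff r0 (hyp r r0) U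
      (rg_le fun j => (w j).1)).imp fun _ p => ⟨fun i => by simpa using p.1 i, p.2⟩
  exact ⟨c', c1, ld_pos t0 X.cox.ne l e hq m0 X.h0 c1 c2⟩

section

variable {K : Type} [Field K] [Algebra ℂ K] {n k N q : ℕ} {ε : ℝ} {u : Finset K} {Λ Γ Γ' : BD K}
  {D : Pl K → Fin k → ℤ} {s : Fin N → K} {a : Fin N → Fin k → ℤ}

/-- `ε`-lc and nef in terms of weights; `K` need not be in the span -/
theorem hw (hq : 0 < q) (dt : Dat n u Λ Γ Γ') (x : Cox (Tt n u Λ) D s a) {y : Fin (n + 1) → K}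
    (hc : cn K (n + 1) = kap y) {h w : K} {δ e₁ : Fin k → ℤ}
    (e : Eqv (Tt n u Λ) D ((q : ℝ) • Γ) h δ) (w0 : w ≠ 0)
    (hw : ∀ P ∈ Tt n u Λ, -Γ' P ≤ (P.ord w + e₁ ⬝ᵥ D P : ℤ))
    (lc : ∀ P, Ov u P → ε ≤ 1 + dsc (n + 1) Γ P) (nef : NefO n K u (-Γ)) :
    HW q ε y s a h δ := fun P ξ H => by
  have o := Tpb.ov x H
  have q0 : (0 : ℝ) < q := Nat.cast_pos.2 hq
  have k' : (q : ℝ)⁻¹ * (P.ord h + pa δ ξ) ≤ Γ P :=
    Tz.le_lim (z := Γ' P + (P.ord w + pa e₁ ξ)) fun τ τ0 => by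
      have := Tpb.neg (c := -(q : ℝ)⁻¹) (c' := τ) (e := δ) (e' := e₁) x (fun E hE => hE.1) o H
        (Br.klr dt dt.dn.neg nef τ0) e.1 w0 fun E hE => by
          have k1 := e.2 E hE
          have k2 := hw E hE
          simp only [Pi.sub_apply, Pi.smul_apply, Pi.neg_apply, smul_eq_mul] at k1 ⊢
          push_cast at k1 k2 ⊢
          rw [← k1, neg_mul, inv_mul_cancel_left₀ q0.ne']
          nlinarith
      simp only [Pi.sub_apply, Pi.smul_apply, Pi.neg_apply, smul_eq_mul] at this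
      linarith
  have := lc P o
  rw [dsc, hc, Pi.sub_apply] at this
  rw [div_eq_inv_mul]
  linarith

theorem eff (hq : 0 < q) {y : Fin (n + 1) → K} (hc : cn K (n + 1) = kap y) {h : K} {δ : Fin k → ℤ}
    (e : Eqv (Tt n u Λ) D ((q : ℝ) • Γ) h δ) (bd : ∀ P ∈ Tt n u Λ, dsc (n + 1) Γ P ≤ 0) :
    ∀ E ∈ Tt n u Λ, q * kap y E ≤ (E.ord h + δ ⬝ᵥ D E : ℤ) := fun P p => by
  have q0 : (0 : ℝ) < q := Nat.cast_pos.2 hq
  have b2 := bd P p
  have b3 := e.2 P p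
  simp only [dsc, hc, Pi.sub_apply, Pi.smul_apply, smul_eq_mul] at b2 b3
  push_cast at b3 ⊢
  nlinarith

end

theorem tp_pb {N k n q m : ℕ} {ε : ℝ} (hq : 0 < q) (m2 : 2 ≤ m)
    (H : Gv (Pb (n + 1) q ε) k N q m) : QgB True N k n q ε (q * m) := by
  intro K _ _ u Λ Γ Γ' D s a A x all _ ⟨h, δ, e⟩ bd lc nef
  obtain ⟨y, E, hy, hc⟩ := Cb.exists_cn A.ff
  obtain ⟨w, w0, w1⟩ := Bg.exists_w A x (all trivial)
  exact bak n k _ q m K u Λ Γ Γ' D s a y _ _ A x ⟨E, hy⟩ hc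
    (m2.trans (Nat.le_mul_of_pos_left _ hq)) e fun Q o => H K y _ D s a _ _ Q
      ⟨⟨A.ff, ⟨E, hy⟩, x, e.1, eff hq hc e bd, hw (e₁ := 0) hq A x hc e w0
        (fun P p => by simpa using w1 P p) lc nef⟩, all trivial, Tpb.vt A x (all trivial) o⟩

/-- **the birational case**: the index depends only on a bound for `N - k` -/
theorem qh (hA : Bx.ABE) (l n q : ℕ) (ε : ℝ) (hq : 0 < q) (hε : 0 < ε) :
    ∃ M : ℕ, 1 ≤ M ∧ ∀ k N, N ≤ k + l → QgB True N k n q ε M := by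
  obtain ⟨m, m2, H⟩ := helly hq (lo_pb (n + 1) q ε) (fun k N =>
    (Bg.corG (Bg.abg_of hA) N (n + 1) k q (min ε 1) hq (lt_min hε one_pos)).imp fun m h =>
      ⟨h.1, gv_pb hq hε (by omega) h.2⟩) l
  exact ⟨q * m, Nat.mul_pos hq (by omega), fun k N h => tp_pb hq m2 (H k N h)⟩

end Vale.Agent.P283R.Bh
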