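import Vale.Agent.P283R.Bh.Fi0
import Vale.Agent.P283R.Cy.Lpd
import Vale.Agent.P283R.Cx.Ga

/-!
# P283R, block BH: every datum has a klt complement of some index
-/

open Set CategoryTheory AlgebraicGeometry

noncomputable section

namespace Vale.Agent.P283R.Bh

open Vale.Agent.P287D Vale.Agent.P283M Vale.Agent.P283R.Cx Vale.Agent.P283R.Cy Vale.Agent.P297Z

/-- finitely many multiples suffice -/
theorem uni {k N : ℕ} (a : Fin N → Fin k → ℤ) (δ : Fin k → ℤ) : ∃ m : ℕ, 0 < m ∧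
    ∀ (w : Fin N → ℤ) (L : ℝ), (∀ c, dg a c = 0 → 0 ≤ ∑ j, (c j : ℤ) * w j) →
      ∀ (r : ℕ) (c : Fin N → ℕ), 0 < r → dg a c = -((r : ℤ) • δ) →
        ((∑ j, c j * w j : ℤ) : ℝ) < r * L → ∃ (r' : ℕ) (c' : Fin N → ℕ), 0 < r' ∧ r' ∣ m ∧
          dg a c' = -((r' : ℤ) • δ) ∧ ((∑ j, c' j * w j : ℤ) : ℝ) < r' * L := by
  obtain ⟨T, h1, h2⟩ := Bak.dick fun v : Option (Fin N) → ℕ =>
    0 < v none ∧ dg a (fun j => v (some j)) = -((v none : ℤ) • δ)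
  refine ⟨∏ v ∈ T, v none, Finset.prod_pos fun v hv => (h1 v hv).1, fun w L h0 r => ?_⟩
  induction r using Nat.strong_induction_on with
  | _ r ih =>
    intro c r0 hc lt
    obtain ⟨t, ht, le⟩ := h2 (fun o => o.elim r c) ⟨r0, hc⟩
    obtain ⟨t0, t1⟩ := h1 t ht
    by_cases z : ((∑ j, t (some j) * w j : ℤ) : ℝ) < t none * L
    · exact ⟨_, _, t0, Finset.dvd_prod_of_mem _ ht, t1, z⟩
    obtain ⟨r', rfl⟩ := Nat.exists_eq_add_of_le (show t none ≤ r from le none)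
    obtain ⟨c', rfl⟩ := exists_add_of_le (show (fun j => t (some j)) ≤ c from fun j => le (some j))
    rw [Bak.dg_add, t1, Nat.cast_add, add_smul, neg_add, add_right_inj] at hc
    have l : ((∑ j, c' j * w j : ℤ) : ℝ) < r' * L := by
      simp only [Pi.add_apply, Nat.cast_add, add_mul, Finset.sum_add_distrib, Int.cast_add] at lt
      linarith
    rcases r'.eq_zero_or_pos with rfl | p
    · have := Int.cast_nonneg (R := ℝ) (h0 c' (by simpa using hc))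
      rw [Nat.cast_zero, zero_mul] at l
      exact absurd l (not_lt.2 this)
    · exact ih r' (by omega) c' p hc l

theorem ex_cpl {N k n q : ℕ} {ε : ℝ} (hq : 0 < q) (hε : 0 < ε) {K : Type} [Field K] [Algebra ℂ K]
    {u : Finset K} {Λ Γ Γ' : BD K} {D : Pl K → Fin k → ℤ} {s : Fin N → K}
    {a : Fin N → Fin k → ℤ} (A : Dat n u Λ Γ Γ') (x : Cox (Tt n u Λ) D s a)
    (h1 : ∃ h e, Eqv (Tt n u Λ) D (cn K (n + 1)) h e)
    (h2 : ∃ h e, Eqv (Tt n u Λ) D ((q : ℝ) • Γ) h e)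
    (bd : ∀ P ∈ Tt n u Λ, dsc (n + 1) Γ P ≤ 0) (lc : ∀ P, Ov u P → ε ≤ 1 + dsc (n + 1) Γ P)
    (nef : NefO n K u (-Γ)) : ∃ M, 1 ≤ M ∧ Cpl n M u Λ Γ := by
  obtain ⟨h₀, e₀, e'⟩ := h1
  obtain ⟨h, δ, e⟩ := h2
  obtain ⟨y, E, hy, hc⟩ := Cb.exists_cn A.ff
  obtain ⟨c, f, ci⟩ := Cg.exists_rel (s := s) (a := a)
  have p0 := pow_ne_zero q e'.1
  have Y : Dy n q ε u Λ Γ Γ' y D s a h₀ (h / h₀ ^ q) e₀ (δ - (q : ℤ) • e₀) :=
    ⟨A, ⟨E, hy⟩, hc, x, hc ▸ e', ⟨div_ne_zero e.1 p0, fun P hP => by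
      have k1 := e.2 P hP
      have k2 := e'.2 P hP
      rw [Pl.ord_div _ e.1 p0, Pl.ord_pow, sub_dotProduct, smul_dotProduct]
      simp only [dsc, Pi.sub_apply, Pi.smul_apply, Pi.neg_apply, smul_eq_mul] at k1 ⊢
      push_cast at k1 k2 ⊢
      rw [k2]
      linarith⟩, bd, lc, fun η η0 => Br.klr A A.dn.neg nef η0⟩
  have X := Tpy.dx hq Y ci
  rw [mul_div_cancel₀ h p0, add_sub_cancel] at X
  obtain ⟨m, m0, H⟩ := uni a δ
  have o : ∀ (Q : Pl K) (c : Fin N → ℕ), Q.ord (∏ j, s j ^ c j) = ∑ j, c j * Q.ord (s j) :=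
    fun Q c => by simp only [To.ord_prod Q fun j => pow_ne_zero (c j) (x.ne j), Pl.ord_pow]
  refine ⟨q * (m * 2), Nat.mul_pos hq (by omega), bak n k _ q _ K u Λ Γ Γ' D s a y _ _ A x ⟨E, hy⟩
    hc ((Nat.le_mul_of_pos_left _ m0).trans (Nat.le_mul_of_pos_left _ hq)) e fun Q ov => ?_⟩
  obtain ⟨r, c, r0, c1, c2⟩ := hw_mon hε hq X.hw X.lw Q
  obtain ⟨r, c, r0, ⟨i, hi⟩, c1, c2⟩ := H _ _ (fun c z => o Q c ▸ Tz.mon_ov A x ov c z) r c r0 c1 c2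
  rw [hi] at m0 ⊢
  refine Tpy.mn_mul two_pos (Tpy.mn_mul (Nat.pos_of_mul_pos_left m0) ⟨c, c1, ?_⟩)
  rw [Hl.ld_iff hq r0 e.1 (Finset.prod_ne_zero_iff.2 fun j _ => pow_ne_zero _ (x.ne j)), o]
  rwa [sub_zero] at c2

end Vale.Agent.P283R.Bh

namespace Vale.Agent.P283R.Cox

open Vale.Agent.P289 (Pt St toRat DForm dimension)
open Vale.Agent.P287D Vale.Agent.P283M.Stm Vale.Agent.P283M.Stm.Var Vale.Agent.P297Z
open Vale.Agent.P283M Vale.Agent.P283M.Br Vale.Agent.P283R.Sch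

/-- the scheme side -/
theorem schX {X Z : Var} {n k N : ℕ} {f : X.X ⟶ Z.X} {z : Pt Z.X} {V : Z.X.Opens}
    {r : ℕ} {ε : ℝ} (hr : 0 < r) (hε : 0 < ε)
    {ω : DForm ℂ X.K (n + 1)} {B : X.QDiv} (hdim : dimension X.str = (n + 1 : ℕ))
    (hω : ω.Nonzero) (hB : Pair (ε ≤ ·) ⊤ ω B) (hf : Contraction f) (hF : FanoType f ω)
    (hn : NefOver f (-logCan ω B)) (hz : IsClosed ({z} : Set (Pt Z.X)))
    (hV : IsAffineOpen V) (zV : z ∈ V) {D : Fin k → X.PrimeDiv →₀ ℤ}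
    (h1 : Sl.GradedGen N fun m => {φ : X.K | φ ≠ 0 →
      ∀ E : X.PrimeDiv, E.1 ∈ f ⁻¹ᵁ V → 0 ≤ ord φ E + ∑ i, m i * D i E})
    (h2 : InSpan (f ⁻¹ᵁ V) D (logCan ω 0))
    (h3 : InSpan (f ⁻¹ᵁ V) D fun E => r * logCan ω B E) :
    ∃ M, 1 ≤ M ∧ HasKltComplement f ω B M z := by
  obtain ⟨u, bs⟩ := basV hf hz hV zV
  have hK := ffd X _ hdim
  obtain ⟨Λ, Γ, Γ', a, on, b, b', c, e⟩ := dataW hK hω hB hf hF bs
  obtain ⟨s, w, π, ci⟩ := cg_of bs on h1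
  obtain ⟨j, j0, fr⟩ := frm X _ hK ω hω
  obtain ⟨s, w, π, ci, s0⟩ := Cx.Gn.shift ci
  have s1 : Cox.Sp n u Λ _ (cn X.K (n + 1)) := sp_of bs on h2 j0 fun P E _ dm => by
    rw [← fr X _ E P (is_of_dom dm) (ord_eq dm), logCan]
    simp
  have s3 : ∀ P, Ov u P → On n Λ P → dsc (n + 1) Γ P ≤ 0 :=
    (all_iff bs on (p := fun E => 0 ≤ B E) fun P E c dm => by
      rw [b' P E c dm, neg_nonpos, Rat.cast_nonneg]).1 fun E _ => hB.1 E trivial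
  refine (Bh.ex_cpl hr hε a (Cx.Gn.coxY Cx.big a ci s1 s0) (Cx.Ad.eqv s1)
    (Cx.Ad.eqv (sp_of bs on h3 (pow_ne_zero r j0) fun P E c dm => ?_))
    (fun P t => s3 P t.1 t.2) b (c hn)).imp fun M h => ⟨h.1, e M h.1 h.2⟩
  have h4 := b' P E c dm
  have h5 := fr X _ E P (is_of_dom dm) (ord_eq dm)
  rw [dsc, Pi.sub_apply] at h4
  rw [logCan, Pl.ord_pow, Pi.smul_apply, smul_eq_mul]
  push_cast
  rw [h5]
  linear_combination r * h4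

end Vale.Agent.P283R.Cox
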