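import Vale.Agent.P283R.Bh.Fib
import Vale.Agent.P283R.Cx.Z1

/-!
# P283R, block BH: all contractions, from a klt complement of the generic fibre
-/

open Set CategoryTheory AlgebraicGeometry

noncomputable section

namespace Vale.Agent.P283R.Bh

open Vale.Agent.P287D Vale.Agent.P283M Vale.Agent.P283R.Cx Vale.Agent.P283R.Cy Vale.Agent.P297Z
open Vale.Agent.P283R.To (mon mon_ne)

/-- the property at the vertical places -/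
def Pv (d q : ℕ) (ε : ℝ) : Prp d := fun K _ _ k N y T D s a h δ Q =>
  (∃ (c : ℕ) (f : Fin c → MvPolynomial (Fin N) ℂ) (h₀ g : K) (e₀ b : Fin k → ℤ),
    Eqv T D (kap y) h₀ e₀ ∧ h = h₀ ^ q * g ∧ δ = (q : ℤ) • e₀ + b ∧ Dx q ε y T D s a f h g δ b) ∧
  Vt s a Q

open Hl in
theorem lo_pv (d q : ℕ) (ε : ℝ) : Lo (Pv d q ε) := by
  rintro K _ _ k N y T D s a _ _ Q ⟨⟨c, f, h₀, g, e₀, b, E, rfl, rfl, X⟩, vt⟩
  have hs := X.cox.ne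
  refine ⟨X.cox, X.h0, fun n S => (vtj K k N n s a S Q hs vt).imp fun t ht =>
    ⟨ht.1, fun k' N' e r he H => ⟨?_, ht.2 k' N' e r H⟩⟩⟩
  obtain ⟨f', X'⟩ := dx cxj cij wtj X S he r
  refine ⟨_, f', h₀ * mon s (-S.σ e₀), _, S.σ e₀ ∘ e, _,
    ⟨mul_ne_zero E.1 (mon_ne hs _), fun P hP => ?_⟩, tw_eq hs S _ _ _ _, ?_, X'⟩
  · rw [E.2 P hP.1, ord_tw hs P E.1, ord_TJ hs he hP, S.sec]
    push_cast
    ring
  · rw [map_add, map_smul]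
    rfl

/-- the statement for the rows, with a klt `n₀`-complement of the generic fibre -/
def QgZ (N k n q n₀ : ℕ) (ε : ℝ) (M : ℕ) : Prop :=
  ∀ (K : Type) [Field K] [Algebra ℂ K] (u : Finset K) (Λ Γ Γ' : BD K) (D : Pl K → Fin k → ℤ)
    (s : Fin N → K) (a : Fin N → Fin k → ℤ), Dat n u Λ Γ Γ' → Cox (Tt n u Λ) D s a →
    (∃ h e, Eqv (Tt n u Λ) D (cn K (n + 1)) h e) → (∃ h e, Eqv (Tt n u Λ) D ((q : ℝ) • Γ) h e) →
    (∀ P ∈ Tt n u Λ, dsc (n + 1) Γ P ≤ 0) → (∀ P, Ov u P → ε ≤ 1 + dsc (n + 1) Γ P) →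
    NefO n K u (-Γ) → Gen n n₀ u Λ Γ → Cpl n M u Λ Γ

theorem tp_pv {N k n q m n₀ : ℕ} {ε : ℝ} (hq : 0 < q) (m2 : 2 ≤ m) (n0 : 0 < n₀)
    (H : Gv (Pv (n + 1) q ε) k N q m) : QgZ N k n q n₀ ε (q * (m * n₀)) := by
  intro K _ _ u Λ Γ Γ' D s a A x ⟨h₀, e₀, e'⟩ ⟨h, δ, e⟩ bd lc nef G
  obtain ⟨y, E, hy, hc⟩ := Cb.exists_cn A.ff
  obtain ⟨c, f, ci⟩ := Cg.exists_rel (s := s) (a := a)
  have p0 := pow_ne_zero q e'.1
  have Y : Dy n q ε u Λ Γ Γ' y D s a h₀ (h / h₀ ^ q) e₀ (δ - (q : ℤ) • e₀) :=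
    ⟨A, ⟨E, hy⟩, hc, x, hc ▸ e', ⟨div_ne_zero e.1 p0, fun P hP => by
      have k1 := e.2 P hP
      have k2 := e'.2 P hP
      rw [Pl.ord_div _ e.1 p0, Pl.ord_pow, sub_dotProduct, smul_dotProduct]
      simp only [dsc, Pi.sub_apply, Pi.smul_apply, Pi.neg_apply, smul_eq_mul] at k1 ⊢
      push_cast at k1 k2 ⊢
      rw [k2]
      linarith⟩, bd, lc, fun η η0 => Br.klr A A.dn.neg nef η0⟩
  exact tpy_at hq m2 n0 Y (fun Q o => H K y _ D s a _ _ Q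
    ⟨⟨c, f, h₀, _, e₀, _, Y.can, rfl, rfl, Tpy.dx hq Y ci⟩, o⟩) (hz0 hq n0 Y G)

theorem qz (h : VG) (l n q n₀ : ℕ) (ε : ℝ) (hq : 0 < q) (n0 : 0 < n₀) (hε : 0 < ε) :
    ∃ M : ℕ, 1 ≤ M ∧ ∀ k N, N ≤ k + l → QgZ N k n q n₀ ε M := by
  obtain ⟨m, m2, H⟩ := helly hq (lo_pv (n + 1) q ε) (fun k N => by
    obtain ⟨m, m1, H⟩ := h (n + 1) k N q ε hq hε
    refine ⟨m * 2, Nat.le_mul_of_pos_left _ m1, ?_⟩
    rintro K _ _ y T D s a _ _ Q ⟨⟨c, f, h₀, g, e₀, b, E, rfl, rfl, X⟩, vt⟩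
    exact Tpy.mn_mul two_pos (H K y T D s a c f h₀ g e₀ b E X Q vt)) l
  exact ⟨_, Nat.mul_pos hq (Nat.mul_pos (by omega) n0), fun k N h => tp_pv hq m2 n0 (H k N h)⟩

end Vale.Agent.P283R.Bh

namespace Vale.Agent.P283R.Cox

open Vale.Agent.P289 (Pt St toRat DForm dimension)
open Vale.Agent.P287D Vale.Agent.P283M.Stm Vale.Agent.P283M.Stm.Var Vale.Agent.P297Z
open Vale.Agent.P283M Vale.Agent.P283M.Br Vale.Agent.P283R.Sch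

/-- the scheme side -/
theorem schZ {X Z : Var} {n k N : ℕ} {f : X.X ⟶ Z.X} {z z' : Pt Z.X} {V : Z.X.Opens}
    {r M n₀ : ℕ} {ε : ℝ} (M1 : 1 ≤ M) (n0 : 0 < n₀) (hM : Bh.QgZ N k n r n₀ ε M)
    {ω : DForm ℂ X.K (n + 1)} {B : X.QDiv} (hdim : dimension X.str = (n + 1 : ℕ))
    (hω : ω.Nonzero) (hB : Pair (ε ≤ ·) ⊤ ω B) (hf : Contraction f) (hF : FanoType f ω)
    (hn : NefOver f (-logCan ω B)) (hz : IsClosed ({z} : Set (Pt Z.X)))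
    (h0 : HasKltComplement f ω B n₀ z') (hV : IsAffineOpen V) (zV : z ∈ V)
    {D : Fin k → X.PrimeDiv →₀ ℤ}
    (h1 : Sl.GradedGen N fun m => {φ : X.K | φ ≠ 0 →
      ∀ E : X.PrimeDiv, E.1 ∈ f ⁻¹ᵁ V → 0 ≤ ord φ E + ∑ i, m i * D i E})
    (h2 : InSpan (f ⁻¹ᵁ V) D (logCan ω 0))
    (h3 : InSpan (f ⁻¹ᵁ V) D fun E => r * logCan ω B E) : HasKltComplement f ω B M z := by
  obtain ⟨u, bs⟩ := basV hf hz hV zV
  have hK := ffd X _ hdim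
  obtain ⟨Λ, Γ, Γ', a, on, b, b', c, e⟩ := dataW hK hω hB hf hF bs
  obtain ⟨s, w, π, ci⟩ := cg_of bs on h1
  obtain ⟨j, j0, fr⟩ := frm X _ hK ω hω
  obtain ⟨s, w, π, ci, s0⟩ := Cx.Gn.shift ci
  have s1 : Cox.Sp n u Λ _ (cn X.K (n + 1)) := sp_of bs on h2 j0 fun P E _ dm => by
    rw [← fr X _ E P (is_of_dom dm) (ord_eq dm), logCan]
    simp
  have s3 : ∀ P, Ov u P → On n Λ P → dsc (n + 1) Γ P ≤ 0 :=
    (all_iff bs on (p := fun E => 0 ≤ B E) fun P E c dm => by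
      rw [b' P E c dm, neg_nonpos, Rat.cast_nonneg]).1 fun E _ => hB.1 E trivial
  refine e M M1 (hM X.K u Λ Γ Γ' _ s w a (Cx.Gn.coxY Cx.big a ci s1 s0) (Cx.Ad.eqv s1)
    (Cx.Ad.eqv (sp_of bs on h3 (pow_ne_zero r j0) fun P E c dm => ?_))
    (fun P t => s3 P t.1 t.2) b (c hn) (Cx.gen_of hK hω hf bs on b' n0 h0))
  have h4 := b' P E c dm
  have h5 := fr X _ E P (is_of_dom dm) (ord_eq dm)
  rw [dsc, Pi.sub_apply] at h4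
  rw [logCan, Pl.ord_pow, Pi.smul_apply, smul_eq_mul]
  push_cast
  rw [h5]
  linear_combination r * h4

end Vale.Agent.P283R.Cox

namespace Vale.Agent.P283R.Sl

open Var

/-- all contractions, with a klt `n₀`-complement over some point of the base -/
theorem on_gz (h : Bh.VG) {q n₀ : ℕ} (hq : 1 ≤ q) (n0 : 1 ≤ n₀) (l : ℕ) :
    On fun _ _ _ f ω B z => FanoType f ω ∧ NefOver f (-logCan ω B) ∧
      (∃ z', HasKltComplement f ω B n₀ z') ∧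
      ∃ (k N : ℕ) (V : _) (D : Fin k → _), N ≤ k + l ∧ IsAffineOpen V ∧ z.In V ∧
        GradedGen N (fun m => sections (pre f V) (comb D m)) ∧
        InSpan (pre f V) D (logCan ω 0) ∧ InSpan (pre f V) D fun E => q * logCan ω B E := by
  intro d hd ε hε R hR
  obtain ⟨n, rfl⟩ : ∃ n, d = n + 1 := ⟨d - 1, by omega⟩
  obtain ⟨M, M1, H⟩ := Bh.qz h l n q n₀ ε hq n0 hε
  exact ⟨M, M1, fun X Z f ω B z a b c _ s t ⟨u1, u2, ⟨z', u3⟩, k, N, V, D, le, hV, zV, h1, h2, h3⟩ =>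
    (has_iff f ω B _ z).2 (Cox.schZ (X := X.o) (Z := Z.o) M1 n0 (H k N le) a b
      ((pair_iff _ _ ω B).1 c) s ((fanoType_iff f ω).1 u1) ((nefOver_iff f _).1 u2) t
      ((has_iff f ω B _ z').1 u3) hV zV h1 h2 h3)⟩

/-- the same with the word `CoxRelK` -/
theorem on_rel0 (h : Bh.VG) {q n₀ : ℕ} (hq : 1 ≤ q) (n0 : 1 ≤ n₀) (l : ℕ) :
    On fun _ _ _ f ω B z => FanoType f ω ∧ NefOver f (-logCan ω B) ∧
      (∃ z', HasKltComplement f ω B n₀ z') ∧ CoxRelK l q f ω B z :=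
  (on_gz h hq n0 l).mono fun _ X _ _ _ B _ ⟨u1, u2, u3, k, N, V, D, le, hV, zV, h1, h2, h3⟩ =>
    ⟨u1, u2, u3, k, N, V, D, le, hV, zV, h1, h2,
      Cox.InSpan.add (X := X.o) h2 h3 q fun E => (mul_add _ _ _).trans
        (congrArg (fun x : ℚ => q * x + q * B.coeff E) (add_zero _).symm)⟩

end Vale.Agent.P283R.Sl
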