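import Vale.Agent.P283R.Bh.Bir
import Vale.Agent.P283R.Bh.Sch

/-!
# P283R, block BH: the birational case on the scheme side
-/

namespace Vale.Agent.P283R.Sl

open Var

/-- birational contractions, `k` divisors, at most `k + l` generators -/
theorem on_relA (h : Bx.ABE) {q : ℕ} (hq : 1 ≤ q) (l : ℕ) :
    On fun _ _ _ f ω B z => FanoType f ω ∧ NefOver f (-logCan ω B) ∧ (∃ p, IsPull f p) ∧
      CoxRel l q f ω B z :=
  on_rel (Bh.qh h) hq l

end Vale.Agent.P283R.Sl
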