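import Vale.Agent.P283R.Cy.Hly
import Vale.Agent.P283R.Cy.Lat
import Vale.Agent.P283R.Cx.Tpy

/-!
# P283R, block BH: integer Helly for any property which is stable under localization
-/

open Set

noncomputable section

namespace Vale.Agent.P283R.Bh

open Vale.Agent.P287D Vale.Agent.P283M Vale.Agent.P283R.Cx Vale.Agent.P283R.Cy Vale.Agent.P297Z
open Vale.Agent.P283R.To (mon mon_ne mon_add ord_mon)

/-- properties of the data -/
abbrev Prp (d : ℕ) : Type 1 := ∀ (K : Type) [Field K] [Algebra ℂ K] (k N : ℕ), (Fin d → K) →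
  Set (Pl K) → (Pl K → Fin k → ℤ) → (Fin N → K) → (Fin N → Fin k → ℤ) → K → (Fin k → ℤ) → Pl K →
    Prop

/-- the property gives a monomial, for `k` divisors and `N` generators -/
def Gv {d : ℕ} (Φ : Prp d) (k N q m : ℕ) : Prop :=
  ∀ (K : Type) [Field K] [Algebra ℂ K] y T D s a h δ Q, Φ K k N y T D s a h δ Q →
    MN q m y s a h δ Q

/-- the property is stable under localization -/
def Lo {d : ℕ} (Φ : Prp d) : Prop :=
  ∀ (K : Type) [Field K] [Algebra ℂ K] (k N : ℕ) y T D s a h δ Q, Φ K k N y T D s a h δ Q →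
    Cox T D s a ∧ h ≠ 0 ∧ ∀ (n : ℕ) (S : Spl a n), ∃ t : Finset (Fin N), t.card ≤ n ∧
      ∀ (k' N' : ℕ) (e : Fin k' → Fin N) (r : Fin N' ≃ Fin k' ⊕ Fin n ⊕ Fin n),
        Function.Injective e → (∀ j ∈ t, j ∈ range e) → Φ K k' N' y (TJ T D s a e) (DJ D s a e)
          (S.sj s r) (S.aj e r) (h * mon s (-S.σ δ)) (S.σ δ ∘ e) Q

open Hl in
theorem helly1 {d q : ℕ} (hq : 0 < q) {Φ : Prp d} (lo : Lo Φ) (n : ℕ)
    (H : ∀ k', ∃ m, 2 ≤ m ∧ Gv Φ k' (k' + (n + n)) q m) :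
    ∃ M, 2 ≤ M ∧ ∀ k N, N = n + k → Gv Φ k N q M := by
  choose m m2 hm using H
  have m0 : ∀ i, 0 < m i := fun i => by have := m2 i; omega
  set M := ∏ i ∈ Finset.range (2 ^ n + n + 1), m i with hM
  have M0 : 0 < M := Finset.prod_pos fun i _ => m0 i
  have hd : ∀ i ≤ 2 ^ n + n, m i ∣ M := fun i hi =>
    Finset.dvd_prod_of_mem _ (Finset.mem_range.2 (by omega))
  refine ⟨M, (m2 0).trans (Nat.le_of_dvd M0 (hd 0 (Nat.zero_le _))),
    fun k N hN K _ _ y T D s a h δ Q X => ?_⟩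
  obtain ⟨cx, h0, lc⟩ := lo K k N y T D s a h δ Q X
  have hs := cx.ne
  obtain ⟨S⟩ := lat k n _ a hN (surj cx)
  obtain ⟨t₀, t1, t2⟩ := lc n S
  have h' : h * mon s (-S.σ δ) ≠ 0 := mul_ne_zero h0 (mon_ne hs _)
  obtain ⟨v, v1, v2⟩ := He.helly_rays Finset.univ (fun j l => (S.μ (Pi.single l 1) j : ℝ))
    (fun j => (M : ℝ) * S.σ δ j) (fun l => (Q.ord (mon s (S.μ (Pi.single l 1))) : ℝ))
    (M * (q * (1 + kap y Q) - Q.ord (h * mon s (-S.σ δ)))) fun J _ hJ => by
      let e := (J ∪ t₀).orderEmbOfFin rfl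
      have he : ∀ j ∈ J ∪ t₀, j ∈ range e := fun j hj => by
        rw [Finset.range_orderEmbOfFin]; exact hj
      let r : Fin ((J ∪ t₀).card + (n + n)) ≃ Fin (J ∪ t₀).card ⊕ Fin n ⊕ Fin n :=
        Fintype.equivOfCardEq (by simp)
      obtain ⟨u, u1, u2⟩ := hm _ K y _ _ _ _ _ _ Q
        (t2 _ _ e r e.injective fun j hj => he j (Finset.mem_union_right _ hj))
      obtain ⟨v, v1, v2⟩ := (S.mon_iff hs e r _ _).1 ⟨u, u1, rfl⟩
      rw [← v2, ld_iff hq (m0 _) h' (mon_ne hs _), lin_ord hs] at u2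
      obtain ⟨l, hl⟩ := hd _ ((Finset.card_union_le J t₀).trans (add_le_add hJ t1))
      have l0 : (0 : ℝ) < l := by
        exact_mod_cast Nat.pos_of_ne_zero fun h => by rw [h] at hl; omega
      refine ⟨(l : ℤ) • v, fun j hj => ?_, ?_⟩
      · obtain ⟨i, rfl⟩ := he j (Finset.mem_union_left _ hj)
        have := v1 i
        rw [lin] at this
        have : (0 : ℝ) ≤ -(m (J ∪ t₀).card * S.σ δ (e i)) +
            ∑ l, (v l : ℝ) * S.μ (Pi.single l 1) (e i) := by exact_mod_cast this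
        have := mul_nonneg l0.le this
        simp only [hl, Pi.smul_apply, smul_eq_mul, Int.cast_mul, Int.cast_natCast, mul_assoc,
          ← Finset.mul_sum, Nat.cast_mul]
        linarith
      · have := mul_lt_mul_of_pos_left u2 l0
        push_cast at this
        simp only [hl, Pi.smul_apply, smul_eq_mul, Int.cast_mul, Int.cast_natCast, mul_assoc,
          ← Finset.mul_sum, Nat.cast_mul]
        linarith
  have e1 : (fun j => (((S.μ v j - M * S.σ δ j).toNat : ℕ) : ℤ)) = S.μ v + -((M : ℤ) • S.σ δ) :=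
    funext fun j => by
      have : (M : ℤ) * S.σ δ j ≤ S.μ v j := by
        rw [lin S.μ]; exact_mod_cast v1 j (Finset.mem_univ j)
      simp only [Pi.add_apply, Pi.neg_apply, Pi.smul_apply, smul_eq_mul]
      omega
  refine ⟨fun j => (S.μ v j - M * S.σ δ j).toNat, ?_, ?_⟩
  · rw [← dz_nat, e1, map_add, map_neg, map_smul, S.ker, S.sec, zero_add]
  · rw [← mon_nat, e1, ld_iff hq M0 h0 (mon_ne hs _), mon_add hs,
      ord_tw hs Q (mon_ne hs _), lin_ord hs]
    rw [ord_tw hs Q h0] at v2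
    have : Q.ord (mon s ((M : ℤ) • S.σ δ)) = M * Q.ord (mon s (S.σ δ)) := by
      simp only [ord_mon Q hs, Pi.smul_apply, smul_eq_mul, mul_assoc, Finset.mul_sum]
    rw [this]
    push_cast at v2 ⊢
    linarith

theorem le_of_cox {K : Type} [Field K] [Algebra ℂ K] {k N : ℕ} {T : Set (Pl K)}
    {D : Pl K → Fin k → ℤ} {s : Fin N → K} {a : Fin N → Fin k → ℤ} (x : Cox T D s a) : k ≤ N := by
  simpa using LinearMap.finrank_le_finrank_of_surjective (Hl.surj x)

/-- **integer Helly**: the index depends only on a bound for `N - k` -/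
theorem helly {d q : ℕ} (hq : 0 < q) {Φ : Prp d} (lo : Lo Φ)
    (H : ∀ k N, ∃ m, 2 ≤ m ∧ Gv Φ k N q m) (l : ℕ) :
    ∃ M, 2 ≤ M ∧ ∀ k N, N ≤ k + l → Gv Φ k N q M := by
  choose m m2 hm using fun n => helly1 hq lo n fun k' => H k' _
  have m0 : ∀ i, 0 < m i := fun i => by have := m2 i; omega
  have M0 : 0 < ∏ i ∈ Finset.range (l + 1), m i := Finset.prod_pos fun i _ => m0 i
  have hd : ∀ i ≤ l, m i ∣ ∏ i ∈ Finset.range (l + 1), m i := fun i hi =>
    Finset.dvd_prod_of_mem _ (Finset.mem_range.2 (by omega))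
  refine ⟨_, (m2 0).trans (Nat.le_of_dvd M0 (hd 0 (Nat.zero_le _))),
    fun k N hN K _ _ y T D s a h δ Q X => ?_⟩
  have := le_of_cox (lo K k N y T D s a h δ Q X).1
  obtain ⟨r, hr⟩ := hd (N - k) (by omega)
  rw [hr] at M0 ⊢
  exact Tpy.mn_mul (Nat.pos_of_mul_pos_left M0)
    (hm (N - k) k N (by omega) K y T D s a h δ Q X)

end Vale.Agent.P283R.Bh
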