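import Vale.Agent.P283R.Bh.Ex
import Vale.Agent.P283R.Cx.Gv
import Vale.Agent.P283R.Sl.Ma

/-!
# P283R: the statements with one block of quantifiers
-/

open CategoryTheory AlgebraicGeometry

noncomputable section

namespace Vale.Agent.P283R.Sl

open Var

theorem Generated.mono {X Z : Var} {d l l' : ℕ} {f : X.X ⟶ Z.X} {ω : X.Form d} {B : X.QDiv}
    {z : Pt Z.X} (h : Generated l f ω B z) (e : l ≤ l') : Generated l' f ω B z :=
  let ⟨k, N, V, D, le, h⟩ := h; ⟨k, N, V, D, le.trans (Nat.add_le_add_left e k), h⟩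

/-- the index is a function of `l` -/
theorem masterU {U C : ℕ → ∀ (d : ℕ) (X Z : Var), (X.X ⟶ Z.X) → X.Form d → X.QDiv → Pt Z.X → Prop}
    (h : ∀ l, On fun d X Z f ω B z =>
      FanoType f ω ∧ NefOver f (-logCan ω B) ∧ C l d X Z f ω B z)
    (hU : ∀ d : ℕ, 1 ≤ d → ∀ ε : ℝ, 0 < ε → ∀ R : Finset ℚ, (∀ r ∈ R, 0 ≤ r ∧ r ≤ 1) →
      ∀ (X Z : Var) (f : X.X ⟶ Z.X) (ω : X.Form d) (B : X.QDiv) (z : Pt Z.X),
      dimension X.str = d → ω.Nonzero → Pair (ε ≤ ·) (all X.X) ω B →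
      (∀ y, B.coeff y ≠ 0 → B.coeff y ∈ R) → Contraction f → FanoType f ω →
      NefOver f (-logCan ω B) → z.Closed → ∃ l, U l d X Z f ω B z) :
    ∀ d : ℕ, 1 ≤ d → ∀ ε : ℝ, 0 < ε → ∀ R : Finset ℚ, (∀ r ∈ R, 0 ≤ r ∧ r ≤ 1) →
    ∃ n : ℕ → ℕ, (∀ l, 1 ≤ n l) ∧ ∀ (X Z : Var) (f : X.X ⟶ Z.X) (ω : X.Form d) (B : X.QDiv)
      (z : Pt Z.X), dimension X.str = d → ω.Nonzero → Pair (ε ≤ ·) (all X.X) ω B →
      (∀ y, B.coeff y ≠ 0 → B.coeff y ∈ R) → Contraction f → FanoType f ω →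
      NefOver f (-logCan ω B) → z.Closed → (∃ l, U l d X Z f ω B z) ∧
        ∀ l, C l d X Z f ω B z → HasKltComplement f ω B (n l) z := by
  intro d hd ε hε R hR
  choose n n1 H using fun l => h l d hd ε hε R hR
  exact ⟨n, n1, fun X Z f ω B z a b c e s u v t => ⟨hU d hd ε hε R hR X Z f ω B z a b c e s u v t,
    fun l w => H l X Z f ω B z a b c e s t ⟨u, v, w⟩⟩⟩

/-- all contractions, with a klt complement over some point of the base -/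
theorem on_zer (h : Bh.QH True) (h' : Bh.VG) (l : ℕ) :
    On fun _ _ _ f ω B z => FanoType f ω ∧ NefOver f (-logCan ω B) ∧ 1 ≤ l ∧ Generated l f ω B z ∧
      ((∃ p, IsPull f p) ∨ ∃ z', HasKltComplement f ω B l z') := by
  rcases l.eq_zero_or_pos with rfl | l0
  · exact fun _ _ _ _ _ _ => ⟨1, le_rfl, fun _ _ _ _ _ _ _ _ _ _ _ _ u => absurd u.2.2.1 (by omega)⟩
  refine ((on_bir h l).or (On.den fun q hq => on_gz h' hq l0 l)).mono ?_
  rintro _ _ _ _ _ _ _ ⟨u1, u2, -, g, u3 | u3⟩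
  · exact .inl ⟨u1, u2, u3, g⟩
  · obtain ⟨k, N, V, D, le, hV, zV, h1, h2, e | e⟩ := id g
    · exact .inl ⟨u1, u2, e, g⟩
    · exact .inr fun q hq => ⟨u1, u2, u3, k, N, V, D, le, hV, zV, h1, e, h2 q hq⟩

/-- every datum has a klt complement of some index -/
theorem ex_all (h : Bh.QH True) (hu : UN) (d : ℕ) (hd : 1 ≤ d) (ε : ℝ) (hε : 0 < ε) (R : Finset ℚ)
    (hR : ∀ r ∈ R, 0 ≤ r ∧ r ≤ 1) (X Z : Var) (f : X.X ⟶ Z.X) (ω : X.Form d) (B : X.QDiv)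
    (z : Pt Z.X) (a : dimension X.str = d) (b : ω.Nonzero) (c : Pair (ε ≤ ·) (all X.X) ω B)
    (e : ∀ y, B.coeff y ≠ 0 → B.coeff y ∈ R) (s : Contraction f) (u : FanoType f ω)
    (v : NefOver f (-logCan ω B)) (t : z.Closed) :
    ∃ l, 1 ≤ l ∧ Generated l f ω B z ∧ HasKltComplement f ω B l z := by
  obtain ⟨l, g⟩ := gen_all hu hd X Z f ω B z a b s u t
  suffices w : ∃ M, 1 ≤ M ∧ HasKltComplement f ω B M z by
    obtain ⟨M, M1, w⟩ := w
    exact ⟨M * (l + 1), Nat.mul_pos M1 l.succ_pos,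
      g.mono (l.le_succ.trans (Nat.le_mul_of_pos_left _ M1)), w.of_dvd (dvd_mul_right _ _)⟩
  obtain ⟨k, N, V, D, -, hV, zV, h1, h2, o | o⟩ := id g
  · exact (on_bir h l d hd ε hε R hR).imp fun _ H => ⟨H.1, H.2 X Z f ω B z a b c e s t ⟨u, v, o, g⟩⟩
  · obtain ⟨n, rfl⟩ : ∃ n, d = n + 1 := ⟨d - 1, by omega⟩
    have i : ∀ E, ∃ m : ℤ, (∏ E ∈ B.support, (B E).den : ℕ) * B.coeff E = m := fun E => by
      by_cases z : B E = 0
      · exact ⟨0, by simp [z]⟩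
      · obtain ⟨w, hw⟩ := Finset.dvd_prod_of_mem (fun E => (B E).den) (Finsupp.mem_support_iff.2 z)
        refine ⟨w * (B E).num, ?_⟩
        rw [hw]
        push_cast
        rw [mul_comm (_ : ℚ) (w : ℚ), mul_assoc, Rat.den_mul_eq_num]
    exact (Cox.schX (X := X.o) (Z := Z.o) (Finset.prod_pos fun E _ => (B E).den_pos) hε a b
      ((pair_iff _ _ ω B).1 c) s ((fanoType_iff f ω).1 u) ((nefOver_iff f _).1 v) t hV zV h1 o
      (h2 _ i)).imp fun M H => ⟨H.1, (has_iff f ω B M z).2 H.2⟩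

/-- all contractions, the index of a klt complement over some point of the base is bounded -/
theorem masterZ (h : Bh.QH True) (h' : Bh.VG) :
    ∀ d : ℕ, 1 ≤ d → ∀ ε : ℝ, 0 < ε → ∀ R : Finset ℚ, (∀ r ∈ R, 0 ≤ r ∧ r ≤ 1) →
    ∃ n : ℕ → ℕ, (∀ l, 1 ≤ n l) ∧ ∀ (X Z : Var) (f : X.X ⟶ Z.X) (ω : X.Form d) (B : X.QDiv)
      (z : Pt Z.X), dimension X.str = d → ω.Nonzero → Pair (ε ≤ ·) (all X.X) ω B →
      (∀ y, B.coeff y ≠ 0 → B.coeff y ∈ R) → Contraction f → FanoType f ω →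
      NefOver f (-logCan ω B) → z.Closed →
      (∃ l, 1 ≤ l ∧ Generated l f ω B z ∧ HasKltComplement f ω B l z) ∧
        ∀ l, 1 ≤ l ∧ Generated l f ω B z ∧
          ((∃ p, IsPull f p) ∨ ∃ z', HasKltComplement f ω B l z') →
          HasKltComplement f ω B (n l) z :=
  masterU (on_zer h h') (ex_all h un)

end Vale.Agent.P283R.Sl
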